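import Vale.Agent.P092.H264.S2Asm
import Vale.Agent.P092.QT.H333.Coef
import Vale.Agent.P092.QT.H448.Smooth

/-!
P092 (helper58, after helper264), tight frames: masses, a fixed vector for a pair of vectors, and
the smooth field from a lower bound of the masses along one sequence.
-/

set_option linter.all false

open scoped InnerProductSpace Topology ENNReal Pointwise
open Filter Topology ContinuousLinearMap MeasureTheory

namespace Vale.Agent.P092.QT.H264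

open Vale.Agent.P092.H160 (Cmm mul_ap)
open Vale.Agent.P092.QT.H156
open Vale.Agent.P092.H538 (ind ind_nonneg ind_le_one abs_ind_le ind_pos ind_neg)
open Vale.Agent.P092.H264 (ms ms_nonneg exists_U HMSeq meas_coc' tendsto_proj proj_mem secC
  convex_secC isClosed_secC mem_secC const_ae iro_const_mem continuous_of_one)
open Vale.Agent.P092.H933 (fixedSub mem_fixedSub)
open Vale.Agent.P092.QT.H448

section row

variable {Γ Λ K : Type} [Group Γ] [Group Λ] [NormedAddCommGroup K] [InnerProductSpace ℂ K]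
  [CompleteSpace K] {ρ : Γ →* (K →L[ℂ] K)} {V : Λ →* (K →L[ℂ] K)} {ω : K}

theorem summable_ms (h : TRep ρ ω) {F : Γ → ℝ} {C : ℝ} (hF : ∀ g, |F g| ≤ C) (ξ : K) :
    Summable fun γ => F γ * ‖⟪ρ γ ω, ξ⟫_ℂ‖ ^ 2 := by
  refine Summable.of_norm_bounded ((h.summable_coeff ξ).mul_left C) fun γ => ?_
  rw [norm_mul, Real.norm_eq_abs, Real.norm_of_nonneg (by positivity)]
  exact mul_le_mul_of_nonneg_right (hF γ) (by positivity)

theorem ms_mono (h : TRep ρ ω) {P Q : Γ → Prop} (hPQ : ∀ γ, P γ → Q γ) (v : Λ) :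
    ms ρ V ω P v ≤ ms ρ V ω Q v := by
  refine Summable.tsum_le_tsum (fun γ => ?_) (summable_ms h (fun g => abs_ind_le P g) _)
    (summable_ms h (fun g => abs_ind_le Q g) _)
  refine mul_le_mul_of_nonneg_right ?_ (by positivity)
  by_cases hP : P γ
  · rw [ind_pos hP, ind_pos (hPQ γ hP)]
  · rw [ind_neg hP]; exact ind_nonneg _ _

theorem ms_le (h : Sm.Frm ρ V ω) (P : Γ → Prop) (v : Λ) : ms ρ V ω P v ≤ H333.fc h.reg := by
  have h1 := (H333.hasSum_norm_sq h.reg (V v ω)).tsum_eq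
  rw [h.norm_map, h.norm_omega, one_pow, mul_one] at h1
  rw [← h1]
  refine Summable.tsum_le_tsum (fun γ => ?_) (summable_ms h.reg (fun g => abs_ind_le P g) _)
    (h.reg.summable_coeff _)
  calc _ ≤ 1 * ‖⟪ρ γ ω, V v ω⟫_ℂ‖ ^ 2 :=
        mul_le_mul_of_nonneg_right (ind_le_one _ _) (by positivity)
    _ = _ := one_mul _

variable {G : Type} [Group G] [MeasurableSpace G] {μ : Measure G} {ι : Γ →* G}

/-- The coefficient is at least a multiple of the mass. -/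
theorem ms_le_coef (h : TRep ρ ω) {U : Set G} (hU : μ U ≠ ⊤) {S : Set G} {c : ℝ}
    (hc : ∀ x ∈ S, c ≤ μ.real (U ∩ x • U)) (v : Λ) :
    c * ms ρ V ω (fun γ => ι γ ∈ S) v ≤
      ∑' γ, μ.real (U ∩ ι γ • U) * ‖⟪ρ γ ω, V v ω⟫_ℂ‖ ^ 2 := by
  have h0 : ∀ γ : Γ, |μ.real (U ∩ ι γ • U)| ≤ μ.real U := fun γ => by
    rw [abs_of_nonneg measureReal_nonneg]
    exact measureReal_mono Set.inter_subset_left hU
  rw [ms, ← tsum_mul_left]
  refine Summable.tsum_le_tsum (fun γ => ?_) ((summable_ms h (fun g => abs_ind_le _ g) _).mul_left c)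
    (summable_ms h h0 _)
  by_cases hγ : ι γ ∈ S
  · rw [ind_pos (P := fun γ => ι γ ∈ S) hγ, one_mul]
    exact mul_le_mul_of_nonneg_right (hc _ hγ) (by positivity)
  · rw [ind_neg (P := fun γ => ι γ ∈ S) hγ, zero_mul, mul_zero]
    exact mul_nonneg measureReal_nonneg (by positivity)

end row

section ams

variable {E : Type} [Group E] [TopologicalSpace E] [IsTopologicalGroup E]
    [LocallyCompactSpace E] [SecondCountableTopology E] [T2Space E] [MeasurableSpace E]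
    [BorelSpace E] {Λ : Subgroup E} [DiscreteTopology Λ] [MeasurableSpace (E ⧸ Λ)]
    [BorelSpace (E ⧸ Λ)] {ν : Measure (E ⧸ Λ)} [IsProbabilityMeasure ν]
    {Γ K : Type} [Group Γ] [NormedAddCommGroup K] [InnerProductSpace ℂ K] [CompleteSpace K]
    {ρ : Γ →* (K →L[ℂ] K)} {V : Λ →* (K →L[ℂ] K)} {ω : K}

theorem integrable_ms (h : Sm.Frm ρ V ω) (P : Γ → Prop) (g : E) :
    Integrable (fun x => ms ρ V ω P (H85.coc Λ g x)) ν := by
  refine Integrable.of_bound (meas_coc' g _).aestronglyMeasurable (H333.fc h.reg)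
    (Eventually.of_forall fun x => ?_)
  rw [Real.norm_of_nonneg (ms_nonneg P _)]
  exact ms_le h P _

/-- The averaged masses are monotone. -/
theorem ams_mono (h : Sm.Frm ρ V ω) {P Q : Γ → Prop} (hPQ : ∀ γ, P γ → Q γ) (g : E) :
    ∫ x, ms ρ V ω P (H85.coc Λ g x) ∂ν ≤ ∫ x, ms ρ V ω Q (H85.coc Λ g x) ∂ν :=
  integral_mono (integrable_ms h P g) (integrable_ms h Q g) fun x => ms_mono h.reg hPQ _

end ams

section ind

open Vale.Agent.P092.H790 Vale.Agent.P092.H85 Vale.Agent.P092.H103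

section one

variable {E : Type} [Group E] [TopologicalSpace E] [IsTopologicalGroup E] [LocallyCompactSpace E]
  [SecondCountableTopology E] [T2Space E] [MeasurableSpace E] [BorelSpace E]
  {Λ : Subgroup E} [DiscreteTopology Λ] [MeasurableSpace (E ⧸ Λ)] [BorelSpace (E ⧸ Λ)]
  {ν : Measure (E ⧸ Λ)} [IsProbabilityMeasure ν] (hν : ∀ g : E, ν.map (fun x => g • x) = ν)
  {X : Type} [NormedAddCommGroup X] [InnerProductSpace ℂ X] [CompleteSpace X]
  {π : Λ →* (X →L[ℂ] X)} (hπ : ∀ g, adjoint (π g) = π g⁻¹) [Countable Λ]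

include hπ in
/-- The coefficient of two constant sections. -/
theorem coef2 (g : E) (f f' : X) :
    ⟪iro hν π g (Lp.const 2 ν f), Lp.const 2 ν f'⟫_ℂ = ∫ x, ⟪π (coc Λ g x) f, f'⟫_ℂ ∂ν := by
  rw [L2.inner_def]
  have c1 : ⇑(Lp.const 2 ν f') =ᵐ[ν] Function.const _ f' := Lp.coeFn_const ..
  have h1 : (fun x => ⟪(iro hν π g (Lp.const 2 ν f) : E ⧸ Λ → X) x,
      (Lp.const 2 ν f' : E ⧸ Λ → X) x⟫_ℂ) =ᵐ[ν]
      fun x => ⟪π (coc Λ g (g⁻¹ • x)) f, f'⟫_ℂ := by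
    filter_upwards [const_ae hν hπ g f, c1] with x a1 a2
    rw [a1, a2]; rfl
  rw [integral_congr_ae h1]
  have h2 : MeasurableEmbedding fun x : E ⧸ Λ => g⁻¹ • x :=
    (Homeomorph.smul g⁻¹).measurableEmbedding
  exact (mpres hν g⁻¹).integral_comp h2 (fun x => ⟪π (coc Λ g x) f, f'⟫_ℂ)

end one

section two

variable {H H' E : Type} [Group H] [TopologicalSpace H] [IsTopologicalGroup H]
    [Group H'] [TopologicalSpace H'] [IsTopologicalGroup H']
    [Group E] [TopologicalSpace E] [IsTopologicalGroup E] [LocallyCompactSpace E]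
    [SecondCountableTopology E] [T2Space E] [MeasurableSpace E] [BorelSpace E]
    {Λ : Subgroup E} [DiscreteTopology Λ] [MeasurableSpace (E ⧸ Λ)] [BorelSpace (E ⧸ Λ)]
    {ν : Measure (E ⧸ Λ)} [IsProbabilityMeasure ν]
    (hν : ∀ g : E, ν.map (fun x => g • x) = ν)
    {X : Type} [NormedAddCommGroup X] [InnerProductSpace ℂ X] [CompleteSpace X]
    {π : Λ →* (X →L[ℂ] X)} (hπ : ∀ g, adjoint (π g) = π g⁻¹) [Countable Λ]

include hπ in
/-- **A vector fixed by `H'` with values in `C`**, two vectors. -/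
theorem exists_fixed_C2 (e : H × H' ≃* E) (he : Continuous e) {b : ℕ → H'} (hM : HMSeq H' b)
    (f f' : X) {c : ℝ} (hc : 0 < c)
    (hm : ∀ N, c ≤ ‖∫ x, ⟪π (coc Λ (e ((1 : H), b N)) x) f, f'⟫_ℂ ∂ν‖) {C : Set X}
    (hC1 : Convex ℝ C) (hC2 : IsClosed C) (hf : f ∈ C) (hC3 : ∀ v, ∀ ξ ∈ C, π v ξ ∈ C) :
    ∃ η : Lp X 2 ν, η ≠ 0 ∧ (∀ g : H', iro hν π (e ((1 : H), g)) η = η) ∧
      ∀ᵐ x ∂ν, η x ∈ C := by
  obtain ⟨σ, hσ⟩ : ∃ σ : H' →* (Lp X 2 ν →L[ℂ] Lp X 2 ν),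
      σ = (irep hν hπ).comp (e.toMonoidHom.comp (MonoidHom.inr H H')) := ⟨_, rfl⟩
  have hσ1 : ∀ g, σ g = iro hν π (e ((1 : H), g)) := fun g => by rw [hσ]; rfl
  have hcr := irep_crep hν hπ
  have hiso : ∀ g ξ, ‖σ g ξ‖ = ‖ξ‖ := fun g ξ => by
    rw [hσ]
    exact Vale.Agent.P092.H885.u_norm hcr.adj _ ξ
  have hct : ∀ ξ, Continuous fun g => σ g ξ := by
    refine continuous_of_one hiso fun ξ => ?_
    have h1 : Tendsto (fun g : H' => e ((1 : H), g)) (𝓝 1) (𝓝 1) := by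
      have h2 : Continuous fun g : H' => e ((1 : H), g) :=
        he.comp (continuous_const.prodMk continuous_id)
      have h3 := h2.tendsto 1
      have h4 : e ((1 : H), (1 : H')) = 1 := map_one e
      rwa [h4] at h3
    rw [hσ]
    exact (hcr.cont ξ).comp h1
  obtain ⟨F, hF⟩ : ∃ F : Lp X 2 ν, F = Lp.const 2 ν f := ⟨_, rfl⟩
  refine ⟨(fixedSub σ).starProjection F, ?_, ?_, ?_⟩
  · intro h0
    have h1 := (tendsto_proj hM hiso hct F (Lp.const 2 ν f')).norm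
    rw [h0, inner_zero_left, norm_zero] at h1
    have h2 : ∀ N, c ≤ ‖⟪σ (b N) F, Lp.const 2 ν f'⟫_ℂ‖ := fun N => by
      rw [hσ1, hF, coef2 hν hπ]
      exact hm N
    have h3 := ge_of_tendsto h1 (Eventually.of_forall h2)
    linarith
  · intro g
    have h1 := mem_fixedSub.1 (Submodule.starProjection_apply_mem (fixedSub σ) F) g
    rwa [hσ1] at h1
  · refine proj_mem hM hiso hct F (convex_secC hC1) (isClosed_secC hC2) fun N => ?_
    rw [hσ1, hF]
    exact iro_const_mem hν hπ hC3 _ hf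

end two

end ind

section core

open Vale.Agent.P092.H85 (coc)

variable {H H' E : Type} [Group H] [TopologicalSpace H] [IsTopologicalGroup H]
    [LocallyCompactSpace H] [SecondCountableTopology H] [T2Space H] [MeasurableSpace H]
    [BorelSpace H] [Group H'] [TopologicalSpace H'] [IsTopologicalGroup H']
    [LocallyCompactSpace H'] [SecondCountableTopology H'] [T2Space H'] [MeasurableSpace H']
    [BorelSpace H'] [Group E] [TopologicalSpace E] [IsTopologicalGroup E] [LocallyCompactSpace E]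
    [SecondCountableTopology E] [T2Space E] [MeasurableSpace E] [BorelSpace E]
    {Λ : Subgroup E} [DiscreteTopology Λ] [MeasurableSpace (E ⧸ Λ)] [BorelSpace (E ⧸ Λ)]
    {ν : Measure (E ⧸ Λ)} [IsProbabilityMeasure ν]
    (hν : ∀ g : E, ν.map (fun x => g • x) = ν)
    {Γ K : Type} [Group Γ] [Countable Γ]
    [NormedAddCommGroup K] [InnerProductSpace ℂ K] [CompleteSpace K] {ρ : Γ →* (K →L[ℂ] K)}
    {V : Λ →* (K →L[ℂ] K)} {ω : K} (h : Sm.Frm ρ V ω)
    {G : Type} [Group G] [TopologicalSpace G] [IsTopologicalGroup G] [LocallyCompactSpace G]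
    [SecondCountableTopology G] [T2Space G] [MeasurableSpace G] [BorelSpace G] (ι : Γ →* G)
    (μ : Measure G) [μ.IsHaarMeasure] [μ.IsMulRightInvariant]

/-- the source projection -/
abbrev src (e : H × H' ≃* E) (Λ : Subgroup E) : Λ →* H :=
  (MonoidHom.fst H H').comp (e.symm.toMonoidHom.comp Λ.subtype)

include hν h in
/-- **(S2)** along one sequence, for a tight frame. -/
theorem s2_core (e : H × H' ≃* E) (he : Continuous e) {b : ℕ → H'} (hM : HMSeq H' b)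
    {S : Set G} (hS : IsCompact S) {c : ℝ} (hc : 0 < c)
    (hm : ∀ N, c ≤ ∫ x, ms ρ V ω (fun γ => ι γ ∈ S) (coc Λ (e ((1 : H), b N)) x) ∂ν) :
    ∃ f, Sm.Smo ι (src e Λ) ρ V ω μ f ∧ f 1 ω ≠ 0 := by
  classical
  have hcΛ : Countable Λ := H790.countable_of_discrete Λ
  obtain ⟨U, hU, hUm, hUt, c₀, hc₀, hlow⟩ := exists_U μ hS
  obtain ⟨f', hf'⟩ : ∃ f' : Lp K 2 μ, f' = indicatorConstLp 2 hUm hUt ω := ⟨_, rfl⟩
  obtain ⟨f, hf⟩ : ∃ f : Lp K 2 μ, f = H333.tv h.reg ι hUm hUt := ⟨_, rfl⟩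
  obtain ⟨π, hπe⟩ : ∃ π : Λ →* (Lp K 2 μ →L[ℂ] Lp K 2 μ), π = H333.cj h ι μ := ⟨_, rfl⟩
  have hπ : ∀ v, adjoint (π v) = π v⁻¹ := fun v => by rw [hπe]; exact H333.adjoint_cj h v
  have hnorm : ∀ v ξ, ‖π v ξ‖ = ‖ξ‖ := fun v ξ => by rw [hπe]; exact H333.norm_cj h v ξ
  have hfc := H333.fc_pos h.reg
  -- the lower bound
  have h1 : ∀ v, c₀ * ms ρ V ω (fun γ => ι γ ∈ S) v ≤ H333.fc h.reg * (⟪π v f, f'⟫_ℂ).re := by
    intro v
    have h2 := (H333.hasSum_coef_re (ι := ι) h hUm hUt v).tsum_eq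
    have h3 := ms_le_coef (V := V) (ι := ι) h.reg hUt hlow v
    rw [h2, ← hf, ← hf', ← hπe] at h3
    have h4 : (⟪π v f, f'⟫_ℂ).re = (⟪f', π v f⟫_ℂ).re := inner_re_symm (𝕜 := ℂ) _ _
    rw [h4]
    exact h3
  have hint : ∀ g : E, Integrable (fun x => ⟪π (coc Λ g x) f, f'⟫_ℂ) ν := by
    intro g
    refine Integrable.of_bound (meas_coc' g (fun v => ⟪π v f, f'⟫_ℂ)).aestronglyMeasurable
      (‖f‖ * ‖f'‖) (Eventually.of_forall fun x => ?_)
    refine (norm_inner_le_norm _ _).trans ?_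
    rw [hnorm]
  have hm' : ∀ N, (H333.fc h.reg)⁻¹ * (c₀ * c) ≤
      ‖∫ x, ⟪π (coc Λ (e ((1 : H), b N)) x) f, f'⟫_ℂ ∂ν‖ := by
    intro N
    rw [inv_mul_le_iff₀ hfc]
    calc c₀ * c ≤ c₀ * ∫ x, ms ρ V ω (fun γ => ι γ ∈ S) (coc Λ (e ((1 : H), b N)) x) ∂ν :=
          mul_le_mul_of_nonneg_left (hm N) hc₀.le
      _ = ∫ x, c₀ * ms ρ V ω (fun γ => ι γ ∈ S) (coc Λ (e ((1 : H), b N)) x) ∂ν :=
          (integral_const_mul _ _).symm
      _ ≤ ∫ x, H333.fc h.reg * (⟪π (coc Λ (e ((1 : H), b N)) x) f, f'⟫_ℂ).re ∂ν :=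
          integral_mono ((integrable_ms h _ _).const_mul _) ((hint _).re.const_mul _)
            fun x => h1 _
      _ = H333.fc h.reg * ∫ x, (⟪π (coc Λ (e ((1 : H), b N)) x) f, f'⟫_ℂ).re ∂ν :=
          integral_const_mul _ _
      _ = H333.fc h.reg * (∫ x, ⟪π (coc Λ (e ((1 : H), b N)) x) f, f'⟫_ℂ ∂ν).re := by
          congr 1
          exact integral_re (hint _)
      _ ≤ _ := mul_le_mul_of_nonneg_left (Complex.re_le_norm _) hfc.le
  -- the convex set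
  have hC1 : Convex ℝ (BdS ι ρ ω μ 1) := convex_bdS 1
  have hC2 : IsClosed (BdS ι ρ ω μ 1) := isClosed_bdS h.reg zero_le_one
  have hCC : ∀ ξ : Lp K 2 μ, ξ ∈ BdS ι ρ ω μ 1 ↔ ξ ∈ H333.CC ρ ω ι μ 1 := fun ξ =>
    H333.bd_iff h.reg zero_le_one
  have hC3 : ∀ v, ∀ ξ ∈ BdS ι ρ ω μ 1, π v ξ ∈ BdS ι ρ ω μ 1 := fun v ξ hξ => by
    rw [hCC] at hξ ⊢
    rw [hπe]
    exact H333.cj_mem_CC h v hξ
  have hfC : f ∈ BdS ι ρ ω μ 1 := by
    rw [hCC, hf]
    exact ⟨_, H333.isFld_tv (ι := ι) h.reg hUm hUt⟩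
  have hC0 : (0 : Lp K 2 μ) ∈ BdS ι ρ ω μ 1 := by
    refine (Bd.zero (μ := μ) (ι := ι) (ρ := ρ) (ω := ω) zero_le_one).congr ?_
    exact (Lp.coeFn_zero _ _ _).symm
  obtain ⟨η, hη0, hη1, hη2⟩ := exists_fixed_C2 hν hπ e he hM f f'
    (mul_pos (inv_pos.2 hfc) (mul_pos hc₀ hc)) hm' hC1 hC2 hfC hC3
  obtain ⟨ψ, R, a1, a2, a3, a4, a5⟩ := H103.ind_fix_e hν hπ e he η hη1 hη0 hC2 hC1 hC0 hC3 hη2
  refine smooth_of_family h zero_le_one (U := π) (fun v ξ D hξ => ?_) a1 a2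
    (Eventually.of_forall a3) a4 a5
  rw [hπe]
  exact H333.cj_hU h v ξ D hξ

end core

end Vale.Agent.P092.QT.H264
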